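import Vale.Agent.P057PA.Vw
import Vale.Agent.P057DR.Drop

/-!
The system of a pattern has mass one.
-/

set_option linter.all false

open Matrix Finset Sum
open Vale.Agent.P267.H775 Vale.Agent.P057G Vale.Agent.P057PC Vale.Agent.P057TP Vale.Agent.P057SG
open Vale.Agent.P057GH (pr_congr pd_Gam lb_ext qq_bd ng_bd herm_bd posDef_of_qq qq_pos tri_pr)
open Vale.Agent.P057S1

namespace Vale.Agent.P057PA

noncomputable section

variable {T : Tow} {C U V K : Type} [Fintype U] [DecidableEq U] [Fintype V] [DecidableEq V]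
  [Fintype K] [DecidableEq K] {cl : U → C} {m s : ℕ} {N : ℝ}

/-- the edges -/
abbrev Ed (E : V → K → Bool) : Type := {p : V × K // E p.1 p.2 = true}

/-- the coordinates of a pattern -/
abbrev LL (T : Tow) (cl : U → C) (m : ℕ) (E : V → K → Bool) : Type :=
  (PW T cl m ⊕ LS T cl m × (V ⊕ K)) ⊕ NP T cl m × Ed E

variable {E : V → K → Bool}

def cw {R : Type} (x : LL T cl m E → R) (l : PW T cl m) : R := x (inl (inl l))
def ca {R : Type} (x : LL T cl m E → R) (j : V ⊕ K) (l : LS T cl m) : R := x (inl (inr (l, j)))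
def cn {R : Type} (x : LL T cl m E → R) (e : Ed E) (l : NP T cl m) : R := x (inr (l, e))

/-- the section -/
def eL : LL T cl m E → Lb T (c2 cl V) (Option K) m :=
  Sum.elim (Sum.elim (fun l => lab ∅ none l.1 (h0 _)) fun p =>
    Sum.elim (fun v => lab {v} none p.1.1 (h1 v p.1.2.2)) (fun k => lab ∅ (some k) p.1.1 (h0 _)) p.2)
    fun p => lab {p.2.1.1} (some p.2.1.2) p.1.1 (h1 _ (no_pu p.1.2))

/-- the shear -/
def yL (p : NP T cl m × Ed E) : Lb T (c2 cl V) (Option K) m := lab ∅ (some p.2.1.2) p.1.1 (h0 _)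

/-- the centres -/
def pL (X : V → Sys T U Unit) (Y : Sys T U Unit) (x : LL T cl m E → ℤ) : LL T cl m E → ℝ :=
  Sum.elim (Sum.elim (fun l => Y.pr cl m (gl3 (toR (cw x)) 0 0) l) fun p =>
    Sum.elim (fun v => cL (X v) (cw x) (toR (ca x (inl v))) p.1 - cL Y (cw x) 0 p.1)
      (fun k => cL Y (cw x) (toR (ca x (inr k))) p.1) p.2)
    fun p => (X p.2.1.1).pr cl m
      (toR (gl3 (cw x) (ca x (inl p.2.1.1) + ca x (inr p.2.1.2)) (cn x p.2))) p.1

/-- the Gram matrix -/
def GP (T : Tow) (cl : U → C) (m : ℕ) (E : V → K → Bool) (sc : V ⊕ K → ℝ) :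
    Matrix (LL T cl m E) (LL T cl m E) ℝ :=
  fromBlocks (fromBlocks (bk (Gam T cl Unit m) Pu) 0 0
    (blockDiagonal fun j => sc j • bk (Gam T cl Unit m) Li)) 0 0
    (blockDiagonal fun _ => bk (Gam T cl Unit m) No)

theorem eL_inj : (eL : LL T cl m E → _).Injective := by
  rintro ((l | ⟨l, v | k⟩) | ⟨l, e⟩) ((l' | ⟨l', v' | k'⟩) | ⟨l', e'⟩) h <;>
    dsimp only [eL, elim_inl, elim_inr] at h <;> obtain ⟨a, b, c⟩ := lab_inj h
  all_goals first
    | exact (l'.2.2 (a ▸ l.2)).elim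
    | exact (no_pu l'.2 (a ▸ l.2)).elim
    | exact (l.2.2 (a ▸ l'.2)).elim
    | exact (no_pu l.2 (a ▸ l'.2)).elim
    | exact (l'.2 (a ▸ l.2.1)).elim
    | exact (l.2 (a ▸ l'.2.1)).elim
    | exact (singleton_ne_empty _ b).elim
    | exact (singleton_ne_empty _ b.symm).elim
    | skip
  all_goals obtain rfl : l = l' := Subtype.ext a
  · rfl
  · rw [singleton_injective b]
  · rw [Option.some_inj.1 (c (by have := li_card l.2; simp; omega))]
  · rw [Subtype.ext (Prod.ext (singleton_injective b)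
      (Option.some_inj.1 (c (no_lt l.2).ne)) : e.1 = e'.1)]

theorem yL_ne (p : NP T cl m × Ed E) (k : LL T cl m E) : yL p ≠ eL k := by
  intro h
  rcases k with (l | ⟨l, v | k⟩) | ⟨l, e⟩ <;>
    dsimp only [eL, yL, elim_inl, elim_inr] at h <;> obtain ⟨a, b, -⟩ := lab_inj h
  exacts [no_pu p.1.2 (a ▸ l.2), p.1.2 (a ▸ l.2.1), p.1.2 (a ▸ l.2.1),
    singleton_ne_empty _ b.symm]

theorem pd_bd {I J : Type} [Fintype I] [DecidableEq I] [Fintype J] [DecidableEq J]
    {M : J → Matrix I I ℝ} (hM : ∀ j, (M j).PosDef) : (blockDiagonal M).PosDef :=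
  posDef_of_qq (herm_bd fun j => (hM j).1) fun x hx => by
    obtain ⟨⟨a, j⟩, h⟩ := Function.ne_iff.1 hx
    rw [qq_bd]
    exact sum_pos' (fun j _ => qq_nonneg (hM j).posSemidef _)
      ⟨j, mem_univ _, qq_pos (hM j) fun e => h (congrFun e a)⟩

variable {sc : V ⊕ K → ℝ} {Λ : ℝ}

theorem pd_GP (hT : T.Ok s N) (h : ∀ j, 0 < sc j) : (GP T cl m E sc).PosDef :=
  have := posDef_bk (pd_Gam hT.pd cl Unit m)
  posDef_blocks (posDef_blocks (this _) (pd_bd fun j => (this _).smul (h j))) (pd_bd fun _ => this _)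

theorem qq_GP (hT : T.Ok s N) (hΛ : 0 ≤ Λ) (h : ∀ j, sc j ≤ Λ)
    (v : Lb T (c2 cl V) (Option K) m → ℝ) :
    qq (GP T cl m E sc) (sh eL yL v) ≤ (1 + (Fintype.card V + Fintype.card K) * Λ +
      4 * Fintype.card V) * qq (Gam T (c2 cl V) (Option K) m) v := by
  classical
  have hG := pd_Gam hT.pd cl Unit m
  have hG' := (pd_Gam hT.pd (c2 cl V) (Option K) m).posSemidef
  have c1 : ∀ l l' : Lb T cl Unit m, l.fc = l'.fc → T.lv l.cd = T.lv l'.cd → Pu l → Pu l' :=
    fun l l' a b c => by_contra fun n => by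
      have := card_np n; have := l.card_eq c; rw [a] at this; omega
  have c2' : ∀ l l' : Lb T cl Unit m, l.fc = l'.fc → T.lv l.cd = T.lv l'.cd → Li l → Li l' :=
    fun l l' a b c => ⟨Or.inr (a ▸ b ▸ li_card c), fun n => c.2 (c1 _ _ a.symm b.symm n)⟩
  have c3 : ∀ l l' : Lb T cl Unit m, l.fc = l'.fc → T.lv l.cd = T.lv l'.cd → No l → No l' :=
    fun l l' a b c n => c (n.imp (c1 _ _ a.symm b.symm) fun n => a ▸ b ▸ n)
  let Q : Option (Option K) → ℝ := fun o =>
    qq (Gam T (c2 cl V) (Option K) m) fun l => if l.bs = o then v l else 0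
  have q0 : ∀ o, 0 ≤ Q o := fun o => qq_nonneg hG' _
  have a1 := qq_lab hT Pu c1 ∅ (none : Option K) (fun l _ => h0 l) v
  have a2 : ∀ j, qq (sc j • bk (Gam T cl Unit m) Li) (ca (sh (eL (E := E)) yL v) j) ≤
      Λ * qq (Gam T (c2 cl V) (Option K) m) v := fun j => by
    rw [qq_smul_mat]
    refine mul_le_mul (h j) ?_ (qq_nonneg (posDef_bk hG _).posSemidef _) hΛ
    rcases j with j | j
    · exact le_of_eq_of_le (congrArg _ (funext fun l => add_zero _))
        (qq_lab hT Li c2' {j} none (fun l hl => h1 _ hl.2) v)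
    · exact le_of_eq_of_le (congrArg _ (funext fun l => add_zero _))
        (qq_lab hT Li c2' ∅ (some j) (fun l _ => h0 l) v)
  have a3 : ∀ e : Ed E, qq (bk (Gam T cl Unit m) No) (cn (sh eL yL v) e) ≤
      4 * Q (some (some e.1.2)) := fun e => by
    have b1 := qq_lab hT No c3 {e.1.1} (some e.1.2) (fun l hl => h1 _ (no_pu hl))
      fun l => if l.bs = some (some e.1.2) then v l else 0
    have b2 := qq_lab hT No c3 ∅ (some e.1.2) (fun l _ => h0 l)
      fun l : Lb T (c2 cl V) (Option K) m => if l.bs = some (some e.1.2) then v l else 0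
    refine le_trans (le_of_eq ?_) ((P057T1.qq_add_le (posDef_bk hG No).posSemidef _ _).trans
      ((add_le_add (mul_le_mul_of_nonneg_left b1 zero_le_two)
        (mul_le_mul_of_nonneg_left b2 zero_le_two)).trans (le_of_eq (by ring))))
    congr 1
    funext l
    have := no_lt l.2
    rw [Pi.add_apply, if_pos (by rw [lab_bs, card_singleton, if_neg this.ne]),
      if_pos (by rw [lab_bs, if_neg (by simp; omega)])]
    rfl
  have a4 : ∑ e : Ed E, Q (some (some e.1.2)) ≤
      Fintype.card V * qq (Gam T (c2 cl V) (Option K) m) v := by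
    rw [← sum_subtype (univ.filter fun p : V × K => E p.1 p.2 = true) (by simp)
      fun p => Q (some (some p.2)), qq_bs hT, Fintype.sum_option, Fintype.sum_option]
    refine (sum_le_sum_of_subset_of_nonneg (filter_subset _ _) fun _ _ _ => q0 _).trans ?_
    simp only [Fintype.sum_prod_type, sum_const, card_univ, nsmul_eq_mul]
    exact mul_le_mul_of_nonneg_left (by linarith [q0 none, q0 (some none)]) (Nat.cast_nonneg _)
  have a5 := sum_le_sum fun j (_ : j ∈ univ) => a2 j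
  have a6 := sum_le_sum fun e (_ : e ∈ univ) => a3 e
  rw [sum_const, card_univ, Fintype.card_sum, nsmul_eq_mul, Nat.cast_add] at a5
  rw [← mul_sum] at a6
  rw [GP, qq_blocks, qq_blocks, qq_bd, qq_bd]
  refine (add_le_add (add_le_add (le_of_eq_of_le ?_ a1) a5) a6).trans (by linarith)
  exact congrArg _ (funext fun l => add_zero _)

variable {B : Sys T (U ⊕ V) (Option K)} {X : V → Sys T U Unit} {Y : Sys T U Unit}

theorem pL_sh (hT : T.Ok s N) (hB : B.Ok) (hX : ∀ v, (X v).Ok) (hY : Y.Ok)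
    (h2 : ∀ k (A : Finset U) a, Set.InjOn cl A →
      Y.fam.at' (some ()) A a = B.fam.at' (some k) (A.disjSum ∅) a)
    (h3 : ∀ v k (A : Finset U) a, Set.InjOn cl A →
      (X v).fam.at' (some ()) A a = B.fam.at' (some k) (A.disjSum {v}) a)
    (z : Lb T (c2 cl V) (Option K) m → ℤ) :
    pL X Y (sh (eL (E := E)) yL z) = sh eL yL (B.pr (c2 cl V) m (toR z)) := by
  have p0 := fun k => pr_vw (cl := cl) (m := m) hB hY (Nat.zero_le _) (h2 k)
  have p1 := fun v k => pr_vw (cl := cl) (m := m) hB (hX v) le_rfl (h3 v k)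
  have w0 : ∀ k (l : PW T cl m), ((cw (sh (eL (E := E)) yL z) l : ℤ) : ℝ) =
      toR z (lab ∅ k l.1 (h0 _)) := fun k l => by
    rw [lab_full (D := ∅) k none (l.1.card_eq l.2)]
    exact congrArg _ (add_zero _)
  funext k
  rcases k with (l | ⟨l, v | k⟩) | ⟨l, e⟩
  · refine Eq.trans (pr_congr hT hY fun l' _ h _ => ?_)
      ((p0 none (toR z) l).trans ((vw_empty _ _ _).trans (add_zero _).symm))
    have h4 : Pu l' := h.elim id fun h => h.trans l.2
    exact (gl3_pu _ _ _ ⟨l', h4⟩).trans ((w0 none _).trans (vw_empty _ _ _).symm)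
  · classical
    let u : Lb T (c2 cl V) (Option K) m → ℝ := fun l => if l.bs = none then z l else 0
    have b : ∀ l : LS T cl m, (lab {v} (none : Option K) l.1 (h1 v l.2.2)).bs = none :=
      fun l => if_pos (li_card l.2)
    have b' : ∀ l : LS T cl m, u (lab ∅ none l.1 (h0 _)) = 0 := fun l => if_neg (by
      have := li_card l.2
      rw [lab_bs, if_neg (by simp; omega)]; simp)
    have b'' : ∀ l : PW T cl m, ((cw (sh (eL (E := E)) yL z) l : ℤ) : ℝ) = u (lab ∅ none l.1 (h0 _)) :=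
      fun l => (w0 none l).trans (if_pos (if_pos (l.1.card_eq l.2))).symm
    have e1 := p1 v none u l
    rw [vw_np _ _ _ l.2.2, ← vw_empty none (B.pr _ m u), ← p0, pr_congr hT hB (x := u) (x' := toR z) fun l' _ h _ =>
      if_pos (h.elim id fun h => h.trans (b l))] at e1
    refine Eq.trans ?_ ((sub_eq_of_eq_add e1).trans (add_zero _).symm)
    refine congrArg₂ (· - ·) (pr_li hT (hX v) (fun k hk => ?_) (fun k hk => ?_) l)
      (pr_li hT hY (fun k hk => ?_) (fun k hk => ?_) l)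
    · exact (gl3_pu _ _ _ ⟨k, hk⟩).trans ((b'' _).trans (vw_pu _ _ _ hk).symm)
    · rw [vw_np _ _ _ hk.2, b' ⟨k, hk⟩]
      exact (gl3_li _ _ _ ⟨k, hk⟩).trans ((congrArg Int.cast (add_zero _)).trans
        ((add_zero _).trans (if_pos (b ⟨k, hk⟩))).symm)
    · exact (gl3_pu _ _ _ ⟨k, hk⟩).trans ((b'' _).trans (vw_empty _ _ _).symm)
    · exact (gl3_li _ _ _ ⟨k, hk⟩).trans ((vw_empty _ _ _).trans (b' ⟨k, hk⟩)).symm
  · refine Eq.trans (pr_li hT hY (fun l hl => ?_) (fun l hl => ?_) l)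
      ((p0 (some k) (toR z) l).trans ((vw_empty _ _ _).trans (add_zero _).symm))
    · exact (gl3_pu _ _ _ ⟨l, hl⟩).trans ((w0 _ _).trans (vw_empty _ _ _).symm)
    · exact (gl3_li _ _ _ ⟨l, hl⟩).trans ((congrArg Int.cast (add_zero _)).trans
        (vw_empty _ (toR z) _).symm)
  · refine Eq.trans (congrArg ((X e.1.1).pr cl m · l.1) (funext fun k => ?_))
      ((p1 e.1.1 (some e.1.2) (toR z) l).trans (vw_np _ _ _ (no_pu l.2)))
    rw [P057S1.toR_gl3]
    by_cases a : Pu k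
    · exact (gl3_pu _ _ _ ⟨k, a⟩).trans ((w0 _ _).trans (vw_pu _ _ _ a).symm)
    · rw [vw_np _ _ _ a]
      by_cases b : k.Pure
      · rw [lab_full (some e.1.2) none (li_card ⟨b, a⟩)]
        refine (gl3_li _ _ _ ⟨k, b, a⟩).trans ((Int.cast_add _ _).trans ?_)
        exact congrArg₂ (· + ·) (congrArg Int.cast (add_zero _)) (congrArg Int.cast (add_zero _))
      · exact (gl3_no _ _ _ ⟨k, b⟩).trans (Int.cast_add _ _)

theorem fine_pL (hT : T.Ok s N) (hB : B.Ok) (hX : ∀ v, (X v).Ok) (hY : Y.Ok)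
    (h2 : ∀ k (A : Finset U) a, Set.InjOn cl A →
      Y.fam.at' (some ()) A a = B.fam.at' (some k) (A.disjSum ∅) a)
    (h3 : ∀ v k (A : Finset U) a, Set.InjOn cl A →
      (X v).fam.at' (some ()) A a = B.fam.at' (some k) (A.disjSum {v}) a)
    {d n : ℕ} {Λ₀ η : ℝ} (hd : m ≤ d + 1) (hL : T.tw.LF d n Λ₀ η)
    (hn : Fintype.card U + Fintype.card V + Fintype.card K < n) (hΛ : 1 ≤ Λ)
    (h4 : 64 * (n + 1) ^ 2 * Λ ≤ Λ₀) (h : ∀ j, sc j ≤ Λ) :
    Fine (GP T cl m E sc) (pL X Y) η ∧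
      Tri (fun k : LL T cl m E => T.lv (eL k).cd) (pL X Y) := by
  have n0 : (0 : ℝ) ≤ n := Nat.cast_nonneg _
  have h0 : 0 < Λ₀ := lt_of_lt_of_le (by positivity) h4
  have hG := pd_Gam hT.pd (c2 cl V) (Option K) m
  refine fine_sh (cub_all hT hB hd hL (by simp; omega) h0) (tri_pr hT hB)
    (hG.smul (by positivity)) eL_inj yL_ne (fun _ => le_rfl) (pL_sh hT hB hX hY h2 h3) fun v => ?_
  rw [qq_smul_mat]
  refine (mul_le_mul_of_nonneg_left (qq_GP hT (by linarith) h v) zero_le_two).trans ?_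
  rw [← mul_assoc]
  refine mul_le_mul_of_nonneg_right ?_ (qq_nonneg hG.posSemidef v)
  have a1 : (Fintype.card V : ℝ) + Fintype.card K + 1 ≤ n := by exact_mod_cast (by omega)
  have a2 : (0 : ℝ) ≤ Fintype.card V := Nat.cast_nonneg _
  have a3 : (0 : ℝ) ≤ Fintype.card K := Nat.cast_nonneg _
  rw [le_div_iff₀ (by positivity), Fintype.card_option, Nat.cast_add, Nat.cast_one]
  refine le_trans ?_ h4
  calc _ ≤ 2 * (5 * (n + 1) * Λ) * (2 * (n + 1)) := by
        gcongr <;> nlinarith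
    _ ≤ _ := by nlinarith [mul_nonneg (sq_nonneg (n + 1 : ℝ)) (zero_le_one.trans hΛ)]

/-- the coordinates of a pattern, separated -/
def eqv : (LL T cl m E → ℤ) ≃ ((PW T cl m → ℤ) × (V ⊕ K → LS T cl m → ℤ)) ×
    (Ed E → NP T cl m → ℤ) where
  toFun x := ((cw x, ca x), cn x)
  invFun q := Sum.elim (Sum.elim q.1.1 fun p => q.1.2 p.2 p.1) fun p => q.2 p.2 p.1
  left_inv x := by funext k; rcases k with (l | l) | l <;> rfl
  right_inv _ := rfl

/-- the weight of the vertices and of the edges of a pattern -/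
def wt (X : V → Sys T U Unit) (Y : Sys T U Unit) (E : V → K → Bool) (sc : V ⊕ K → ℝ)
    (w : PW T cl m → ℤ) (q : V ⊕ K → LS T cl m → ℤ) : ℝ :=
  (∏ v, wX (X v) Y (sc (inl v)) w (q (inl v))) * (∏ k, wY Y (sc (inr k)) w (q (inr k))) *
    ∏ v, ∏ k, cond (E v k) (ch (X v) (fun _ => 1) w (q (inl v) + q (inr k))) 1

theorem hs_pL (hT : T.Ok s N) (hX : ∀ v, (X v).Ok) (h : ∀ j, 0 < sc j) {lv : LL T cl m E → ℕ}
    (ht : Tri lv (pL X Y)) : HasSum (fun w : PW T cl m → ℤ => wP Y w * ∑' q, wt X Y E sc w q)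
      (ms (GP T cl m E sc) (pL X Y)) := by
  have hG := posDef_bk (pd_Gam hT.pd cl Unit m)
  have h1 := (eqv.symm.hasSum_iff.2 (summable_ng ht (pd_GP hT h)).hasSum).prod_fiberwise
    (g := fun q => wP Y q.1 * wt X Y E sc q.1 q.2) fun q => by
      have h2 := (P057KR.hs_pi (fun e : Ed E => (P057DR.summ_N hT (hX e.1.1) q.1
        (q.2 (inl e.1.1) + q.2 (inr e.1.2))).hasSum) fun _ _ => ng_nonneg _ _).mul_left
        (wP Y q.1 * ((∏ v, wX (X v) Y (sc (inl v)) q.1 (q.2 (inl v))) *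
          ∏ k, wY Y (sc (inr k)) q.1 (q.2 (inr k))))
      refine (congrArg₂ (fun f a => HasSum f a) (funext fun y => ?_) ?_).mpr h2
      · rw [Function.comp, GP, ng_blocks (posDef_blocks (hG _) (pd_bd fun j => (hG _).smul (h j))),
          ng_blocks (hG _), ng_bd fun j => (hG _).smul (h j), ng_bd fun _ => hG _,
          Fintype.prod_sum_type]
        rfl
      · rw [wt, ← mul_assoc, ← Fintype.prod_prod_type', ← prod_subtype
          (univ.filter fun p : V × K => E p.1 p.2 = true) (by simp)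
          fun p => ∑' y, wN (X p.1) q.1 (q.2 (inl p.1) + q.2 (inr p.2)) y, prod_filter]
        simp only [ch, mul_one, Bool.cond_eq_ite]
  refine h1.prod_fiberwise fun w => ?_
  rw [← tsum_mul_left]
  exact (h1.summable.prod_factor w).hasSum

end

end Vale.Agent.P057PA
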