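import Vale.Agent.P057PA.Core

/-!
The counting lemma for the patterns of the sifting step.
-/

set_option linter.all false

open Matrix Finset Sum
open Vale.Agent.P267.H775 Vale.Agent.P057G Vale.Agent.P057PC Vale.Agent.P057TP Vale.Agent.P057SG
open Vale.Agent.P057DP (pbo ok_pbo at_pbo img mem_img Cc)
open Vale.Agent.P057KR (pt2)
open Vale.Agent.P057S1

namespace Vale.Agent.P057PA

noncomputable section

/-- copies of the merged vertex and junk free vertices -/
def jj (U I J : Type) : U ⊕ (I ⊕ J) → Option (Option U) :=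
  Sum.elim (fun u => some (some u)) (Sum.elim (fun _ => some none) fun _ => none)

/-- the displacements are reflected -/
def rq (I J K α : Type) [AddCommGroup α] : (I → α) × (J → α) × (K → α) ≃ ((I ⊕ J) ⊕ K → α) where
  toFun q := Sum.elim (Sum.elim q.1 (-q.2.1)) q.2.2
  invFun x := (x ∘ inl ∘ inl, -(x ∘ inl ∘ inr), x ∘ inr)
  left_inv q := Prod.ext rfl (Prod.ext (neg_neg _) rfl)
  right_inv x := by funext k; rcases k with (k | k) | k <;> simp

variable {T : Tow} {C U I J K : Type} [Fintype U] [DecidableEq U] [Fintype I] [Fintype J]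
  [Fintype K] [DecidableEq I] [DecidableEq J] [DecidableEq K] {cl : U → C} {m s : ℕ} {N : ℝ}

theorem cc_jj (cl : U → C) : Cc (jj U I J) (c2 cl (I ⊕ J)) := by
  rintro (u | i | j) (u' | i' | j') w h h' <;> have := h.trans h'.symm <;>
    simp [jj, c2] at this h h' ⊢
  rw [this]

theorem at_jj (Z : Sys T (Option U) Unit) (k : Option K) (A : Finset U) (a : T.ι)
    (hA : Set.InjOn cl A) : (dy Z).fam.at' (some ()) A a =
      (pbo Z (jj U I J) (Option K)).fam.at' (some k) (A.disjSum ∅) a := by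
  rw [at_pbo _ (cc_jj cl) _ (inj_c2 hA (Nat.zero_le _)), at_dy]
  congr 1
  ext w
  simp [mem_img, jj]

theorem at_jj' (Z : Sys T (Option U) Unit) (v : I ⊕ J) (k : Option K) (A : Finset U) (a : T.ι)
    (hA : Set.InjOn cl A) :
    (Sum.elim (fun _ => mg Z) (fun _ => dy Z) v : Sys T U Unit).fam.at' (some ()) A a =
      (pbo Z (jj U I J) (Option K)).fam.at' (some k) (A.disjSum {v}) a := by
  rw [at_pbo _ (cc_jj cl) _ (inj_c2 hA le_rfl)]
  rcases v with i | j
  · rw [elim_inl, at_mg]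
    congr 1
    ext w
    simp [mem_img, jj, or_comm, eq_comm]
  · rw [elim_inr, at_dy]
    congr 1
    ext w
    simp [mem_img, jj]

theorem pL_add {V : Type} [Fintype V] [DecidableEq V] {E : V → K → Bool}
    {X X' : V → Sys T U Unit} {Y Y' : Sys T U Unit} {cx : V → Lb T cl Unit m → ℝ}
    {cy : Lb T cl Unit m → ℝ} (h1 : ∀ v x, (X' v).pr cl m x = (X v).pr cl m x + cx v)
    (h2 : ∀ x, Y'.pr cl m x = Y.pr cl m x + cy) :
    ∃ c : LL T cl m E → ℝ, pL X' Y' = fun x => pL X Y x + c := by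
  refine ⟨Sum.elim (Sum.elim (fun l => cy l) fun p =>
    Sum.elim (fun v => cx v p.1 - cy p.1) (fun _ => cy p.1) p.2) fun p => cx p.2.1.1 p.1, ?_⟩
  funext x k
  rcases k with (l | ⟨l, v | k⟩) | ⟨l, e⟩ <;>
    simp only [pL, cL, elim_inl, elim_inr, h1, h2, Pi.add_apply]
  ring

variable {Zs Zy : Sys T U Unit}

theorem wt_rq (hT : T.Ok s N) (hP : Pair cl m Zs Zy) (E : I → K → Bool) (E' : J → K → Bool)
    (al be ga : ℝ) (w : PW T cl m → ℤ) (q) :
    wt (Sum.elim (fun _ => Zs) fun _ => Zy) Zy (Sum.elim E E')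
      (Sum.elim (Sum.elim (fun _ => al) fun _ => be) fun _ => ga) w (rq I J K _ q) =
    pt2 (wX Zs Zy al w) (wT Zs be w) (wY Zy ga w) (fun a τ => ch Zs (fun _ => 1) w (a + τ))
      (fun a τ => ch Zy (fun _ => 1) w (τ - a)) E E' q := by
  have k : ∀ t, wX Zy Zy be w (-t) = wT Zs be w t := fun t => by
    rw [wX, wT, hP.nl hT, show toR (-t) = -toR t from funext fun _ => Int.cast_neg _,
      (lin_nl hP.2.1 w).map_neg, neg_sub_neg, ← neg_sub, ng, gs_neg]
    rfl
  simp only [pt2, wt, rq, Equiv.coe_fn_mk, Fintype.prod_sum_type, elim_inl, elim_inr,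
    Pi.neg_apply, k, neg_add_eq_sub, mul_assoc]

theorem pat : PAT := by
  intro s N T C U _ _ cl m d n Zs Zy Λ₀ Λ η al be ga I J K _ _ _ _ _ _ E E' hT hP hd hL hn hΛ h4
    ha hb hg
  obtain ⟨hs, hy, Z, cs, cy, hZ, -, c1, c3⟩ := id hP
  have s0 : ∀ j : (I ⊕ J) ⊕ K, 0 < Sum.elim (Sum.elim (fun _ => al) fun _ => be) (fun _ => ga) j ∧
      Sum.elim (Sum.elim (fun _ => al) fun _ => be) (fun _ => ga) j ≤ Λ := by
    rintro ((i | j) | k)
    exacts [ha, hb, hg]
  obtain ⟨h1, h2⟩ := fine_pL (cl := cl) (E := Sum.elim E E') hT (ok_pbo hZ (jj U I J) (Option K))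
    (by rintro (i | j); exacts [ok_mg hZ, ok_dy hZ]) (ok_dy hZ) (at_jj Z) (at_jj' Z) hd hL
    (by rw [Fintype.card_sum]; omega) hΛ h4 fun j => (s0 j).2
  obtain ⟨c, e⟩ := pL_add (E := Sum.elim E E') (X := Sum.elim (fun _ => mg Z) fun _ => dy Z)
    (X' := Sum.elim (fun _ => Zs) fun _ => Zy) (cx := Sum.elim (fun _ => cs) fun _ => cy)
    (by rintro (i | j); exacts [c1, c3]) c3
  have h3 := h1 _ c (pd_GP hT fun j => (s0 j).1) fun _ => le_rfl
  have h5 := tri_add h2 c
  rw [← e] at h3 h5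
  refine ⟨_, h3, (hs_pL hT (by rintro (i | j); exacts [hs, hy]) (fun j => (s0 j).1)
    h5).congr_fun fun w => congrArg₂ (· * ·) (hP.wP w) ?_⟩
  rw [← (rq I J K _).tsum_eq (wt _ _ _ _ w)]
  exact tsum_congr fun q => (wt_rq hT hP E E' al be ga w q).symm

end

end Vale.Agent.P057PA
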