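import Vale.Agent.P057S1.View
import Vale.Agent.P057EN.Dbl
import Vale.Agent.P057GH.Mix

/-!
Views of a configuration with many further vertices and many special vertices.
-/

set_option linter.all false

open Matrix Finset
open Vale.Agent.P267.H775 Vale.Agent.P057G Vale.Agent.P057PC Vale.Agent.P057TP Vale.Agent.P057SG
open Vale.Agent.P057GH (pr_congr pd_Gam lb_ext)
open Vale.Agent.P057DP (Gam_ne)
open Vale.Agent.P057EN Vale.Agent.P057S1

namespace Vale.Agent.P057PA

noncomputable section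

section shear

variable {L K₁ K₂ : Type} [Fintype L] [DecidableEq L] [Fintype K₁] [DecidableEq K₁] [Fintype K₂]
  [DecidableEq K₂]

/-- restriction along `e`, sheared by `y` -/
def sh {R : Type} [AddCommMonoid R] (e : K₁ ⊕ K₂ → L) (y : K₂ → L) (z : L → R) (k : K₁ ⊕ K₂) : R :=
  z (e k) + Sum.elim (fun _ => 0) (fun a => z (y a)) k

theorem fine_sh {lv : L → ℕ} {p : (L → ℤ) → L → ℝ} {Γ : Matrix L L ℝ} {η : ℝ} (H : Fine Γ p η)
    (hp : Tri lv p) (hΓ : Γ.PosDef) {e : K₁ ⊕ K₂ → L} {y : K₂ → L} (he : e.Injective)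
    (hy : ∀ a k, y a ≠ e k) (hl : ∀ a, lv (y a) ≤ lv (e (Sum.inr a)))
    {p' : (K₁ ⊕ K₂ → ℤ) → K₁ ⊕ K₂ → ℝ} (hp' : ∀ z, p' (sh e y z) = sh e y (p z))
    {Γ' : Matrix (K₁ ⊕ K₂) (K₁ ⊕ K₂) ℝ} (h : ∀ v, 2 * qq Γ' (sh e y v) ≤ qq Γ v) :
    Fine Γ' p' η ∧ Tri (fun k => lv (e k)) p' := by
  let S : Matrix (K₁ ⊕ K₂) L ℤ := Matrix.of fun k l =>
    (if e k = l then 1 else 0) + Sum.elim (fun _ => 0) (fun a => if y a = l then 1 else 0) k
  have h1 : ∀ z : L → ℤ, S *ᵥ z = sh e y z := fun z => funext fun k => by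
    cases k <;> simp [S, sh, mulVec, dotProduct, add_mul, sum_add_distrib]
  have h2 : ∀ z : L → ℝ, P057ST.mR S *ᵥ z = sh e y z := fun z => funext fun k => by
    cases k <;> simp [S, sh, P057ST.mR, mulVec, dotProduct, add_mul, sum_add_distrib]
  have h3 : ∀ k k', S k (e k') = (1 : Matrix _ _ ℤ) k k' := fun k k' => by
    cases k <;> simp [S, he.eq_iff, one_apply, hy]
  have h4 : ∀ k l, S k l ≠ 0 → lv l ≤ lv (e k) := fun k l h => by
    by_cases h5 : e k = l
    · rw [h5]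
    · cases k with
      | inl k => simp [S, h5] at h
      | inr k =>
        have : y k = l := by simpa [S, h5] using h
        exact this ▸ hl k
  have h5 : ∀ z, p' (S *ᵥ z) = P057ST.mR S *ᵥ p z := fun z => by rw [h1, h2, hp']
  exact ⟨H.transfer hp hΓ e S h3 h4 h5 fun v => by rw [h2]; exact h v, tri_transfer hp h3 h4 h5⟩

end shear

variable {T : Tow} {C U V S R : Type} [Fintype U] [DecidableEq U] [Fintype V] [DecidableEq V]
  [Fintype S] {cl : U → C} {m s : ℕ} {N : ℝ}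

/-- on the linear fibre the centres see only pure labels -/
theorem pr_li (hT : T.Ok s N) {Z : Sys T U Unit} (h : Z.Ok) {x x' : Lb T cl Unit m → ℝ}
    (h1 : ∀ l, Pu l → x l = x' l) (h2 : ∀ l, Li l → x l = x' l) (l : LS T cl m) :
    Z.pr cl m x l = Z.pr cl m x' l := by
  classical
  let y : Lb T cl Unit m → ℝ := fun l => if Pu l then x l else 0
  have k : ∀ x' : Lb T cl Unit m → ℝ, (∀ l, Pu l → x l = x' l) → Z.pr cl m x' l =
      Z.pr cl m y l + (ext Z).pr (Option.map cl) m (jn (Option.map cl) y (x' - y)) (up l) :=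
    fun x' h1 => by
      have := pr_diff (ok_ext h) y (x := x' - y) (fun k hk => by simp [y, hk, h1 k hk]) l
      rwa [pr_mg_ext, pr_dy_ext, add_sub_cancel, vx_up] at this
  rw [k x fun _ _ => rfl, k x' h1, pr_congr hT (ok_ext h) fun k _ hk _ =>
    jn_pure (y' := y) (x' := x' - y) (fun _ _ => rfl)
      (fun l hl => by rw [Pi.sub_apply, Pi.sub_apply, h2 l hl]) (hk.elim id id)]

/-- the new vertices form one new class -/
def c2 (cl : U → C) (V : Type) : U ⊕ V → Option C := Sum.elim (fun u => some (cl u)) fun _ => none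

theorem inj_c2 {A : Finset U} (hA : Set.InjOn cl A) {D : Finset V} (hD : D.card ≤ 1) :
    Set.InjOn (c2 cl V) (A.disjSum D : Finset (U ⊕ V)) := by
  rintro (u | u) hu (v | v) hv e <;> simp [c2] at hu hv e ⊢
  exacts [hA hu hv e, card_le_one.1 hD _ hu _ hv]

/-- the view from the special vertex `k` with the vertices of `D` merged into it -/
def vw [AddCommMonoid R] (cl : U → C) (D : Finset V) (k : S) (z : Lb T (c2 cl V) S m → R)
    (l : Lb T cl Unit m) : R := ∑ D' ∈ D.powerset, tot z k l.cd (l.fc.disjSum D')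

theorem tot_vw [AddCommMonoid R] (D : Finset V) (k : S) (z : Lb T (c2 cl V) S m → R) (a : T.ι)
    {A : Finset U} (hA : Set.InjOn cl A) :
    tot (vw cl D k z) () a A = ∑ D' ∈ D.powerset, tot z k a (A.disjSum D') := by
  by_cases h1 : T.lv a < m
  · by_cases h2 : A.card ≤ T.lv a
    · obtain ⟨l, rfl, rfl, h3⟩ := exists_lab (T := T) (cl := cl) () h1 hA h2
      exact tot_lab _ h3
    · rw [tot_big _ _ (not_le.1 h2), sum_eq_zero fun D' _ =>
        tot_big _ _ (by rw [card_disjSum]; omega)]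
  · rw [tot_high _ _ _ (not_lt.1 h1), sum_eq_zero fun D' _ => tot_high _ _ _ (not_lt.1 h1)]

theorem pt_vw [AddCommMonoid R] (D : Finset V) (k : S) (z : Lb T (c2 cl V) S m → R)
    {B : Finset U} (hB : Set.InjOn cl B) :
    pt (vw cl D k z) (some ()) B = pt z (some k) (B.disjSum D) := funext fun a => by
  rw [pt_tot, pt_tot, sum_congr rfl fun A hA =>
    tot_vw D k z a (hB.mono (coe_subset.2 (mem_powerset.1 hA))), ← sum_product']
  refine sum_nbij' (fun p => p.1.disjSum p.2) (fun A => (A.toLeft, A.toRight)) ?_ ?_ ?_ ?_ ?_ <;>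
    simp [subset_disjSum, toLeft_disjSum_toRight]

theorem pr_vw {B : Sys T (U ⊕ V) S} {Z : Sys T U Unit} (hB : B.Ok) (hZ : Z.Ok) {D : Finset V}
    (hD : D.card ≤ 1) {k : S} (h : ∀ (A : Finset U) a, Set.InjOn cl A →
      Z.fam.at' (some ()) A a = B.fam.at' (some k) (A.disjSum D) a)
    (z : Lb T (c2 cl V) S m → ℝ) (l : Lb T cl Unit m) :
    Z.pr cl m (vw cl D k z) l = vw cl D k (B.pr (c2 cl V) m z) l := by
  have e : ∀ A ⊆ l.fc, Set.InjOn cl A := fun A hA => l.2.2.1.mono hA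
  rw [pr_map hZ hB (bs_unit l) (fun A => A.disjSum D) (fun A hA => inj_c2 (e A hA) hD)
    (fun A hA => pt_vw D k z (e A hA)) fun A hA => h A _ (e A hA),
    ← tot_lab (vw cl D k _) (bs_unit l), ← dlt_tot]
  exact dlt_congr fun A hA => by rw [pt_vw _ _ _ (e A hA)]

/-- the label over `l` on the face enlarged by `D` -/
def lab (D : Finset V) (k : S) (l : Lb T cl Unit m) (h : D.card ≤ 1 ∧ l.fc.card + D.card ≤ T.lv l.cd) :
    Lb T (c2 cl V) S m :=
  ⟨(l.cd, l.fc.disjSum D, if l.fc.card + D.card = T.lv l.cd then none else some k), l.2.1,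
    inj_c2 l.2.2.1 h.1, by
      rw [card_disjSum]
      split_ifs with e
      exacts [e, lt_of_le_of_ne h.2 e]⟩

theorem tot_lab' [AddCommMonoid R] (z : Lb T (c2 cl V) S m → R) (D : Finset V) (k : S)
    (l : Lb T cl Unit m) (h) : tot z k l.cd (l.fc.disjSum D) = z (lab D k l h) :=
  tot_lab z (l := lab D k l h) (by
    change ite _ _ _ = _ ∨ ite _ _ _ = _
    split_ifs <;> simp)

theorem lab_bs {D : Finset V} {k : S} {l : Lb T cl Unit m} {h} : (lab D k l h).bs =
    if l.fc.card + D.card = T.lv l.cd then none else some k := rfl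

theorem lab_full {D : Finset V} (k k' : S) {l : Lb T cl Unit m} {h}
    (e : l.fc.card + D.card = T.lv l.cd) : lab D k l h = lab D k' l h :=
  lb_ext rfl rfl (by rw [lab_bs, lab_bs, if_pos e, if_pos e])

theorem lab_inj {D D' : Finset V} {k k' : S} {l l' : Lb T cl Unit m} {h h'}
    (e : lab D k l h = lab D' k' l' h') :
    l = l' ∧ D = D' ∧ (l.fc.card + D.card ≠ T.lv l.cd → k = k') := by
  obtain ⟨h1, rfl⟩ := disjSum_inj.1 (congrArg Lb.fc e)
  obtain rfl : l = l' := lab_eq (bs_unit l') (bs_unit l) (congrArg Lb.cd e :) h1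
  refine ⟨rfl, rfl, fun n => ?_⟩
  have := congrArg Lb.bs e
  rwa [lab_bs, lab_bs, if_neg n, if_neg n, Option.some_inj] at this

theorem h0 (l : Lb T cl Unit m) :
    (∅ : Finset V).card ≤ 1 ∧ l.fc.card + (∅ : Finset V).card ≤ T.lv l.cd :=
  ⟨Nat.zero_le _, l.card_le⟩

theorem h1 (v : V) {l : Lb T cl Unit m} (h : ¬ Pu l) :
    ({v} : Finset V).card ≤ 1 ∧ l.fc.card + ({v} : Finset V).card ≤ T.lv l.cd :=
  ⟨le_rfl, card_np h⟩

theorem no_pu {l : Lb T cl Unit m} (h : No l) : ¬ Pu l := fun e => h (Or.inl e)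

theorem no_lt {l : Lb T cl Unit m} (h : No l) : l.fc.card + 1 < T.lv l.cd :=
  lt_of_le_of_ne (card_np (no_pu h)) fun e => h (Or.inr e)

theorem vw_empty [AddCommMonoid R] (k : S) (z : Lb T (c2 cl V) S m → R) (l : Lb T cl Unit m) :
    vw cl ∅ k z l = z (lab ∅ k l (h0 l)) := by
  rw [vw, powerset_empty, sum_singleton, tot_lab']

theorem vw_one [AddCommMonoid R] (v : V) (k : S) (z : Lb T (c2 cl V) S m → R)
    (l : Lb T cl Unit m) : vw cl {v} k z l =
      z (lab ∅ k l (h0 l)) + tot z k l.cd (l.fc.disjSum {v}) := by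
  rw [vw, ← insert_empty_eq, sum_powerset_insert (notMem_empty v), powerset_empty, sum_singleton,
    sum_singleton, tot_lab']

theorem vw_pu [AddCommMonoid R] (v : V) (k : S) (z : Lb T (c2 cl V) S m → R)
    {l : Lb T cl Unit m} (h : Pu l) : vw cl {v} k z l = z (lab ∅ k l (h0 l)) := by
  rw [vw_one, tot_big _ _ (by rw [card_disjSum, l.card_eq h]; simp), add_zero]

theorem vw_np [AddCommMonoid R] (v : V) (k : S) (z : Lb T (c2 cl V) S m → R)
    {l : Lb T cl Unit m} (h : ¬ Pu l) :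
    vw cl {v} k z l = z (lab {v} k l (h1 v h)) + z (lab ∅ k l (h0 l)) := by
  rw [vw_one, tot_lab', add_comm]

theorem gam_lv (hT : T.Ok s N) {W C' : Type} [Fintype W] [DecidableEq W] {cl : W → C'}
    {l l' : Lb T cl S m} (h : Gam T cl S m l l' ≠ 0) : T.lv l.cd = T.lv l'.cd :=
  by_contra fun e => h (by simp [Gam, hT.blk _ _ e])

/-- the norm of the labels over a set of labels of one kind -/
theorem qq_lab (hT : T.Ok s N) (P : Lb T cl Unit m → Prop) [DecidablePred P]
    (hP : ∀ l l' : Lb T cl Unit m, l.fc = l'.fc → T.lv l.cd = T.lv l'.cd → P l → P l')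
    (D : Finset V) (k : S) (h : ∀ l, P l → D.card ≤ 1 ∧ l.fc.card + D.card ≤ T.lv l.cd)
    (v : Lb T (c2 cl V) S m → ℝ) :
    qq (bk (Gam T cl Unit m) P) (fun l => v (lab D k l (h l l.2))) ≤
      qq (Gam T (c2 cl V) S m) v := by
  refine qq_emb (pd_Gam hT.pd _ S m) (i := fun l : {l // P l} => lab D k l.1 (h l l.2))
    (fun l l' e => Subtype.ext (lab_inj e).1) (fun l l' => ?_) (fun l₁ l₂ h1 h2 => ?_) v
  · by_cases e : T.lv l.1.cd = T.lv l'.1.cd
    · refine @if_congr _ _ _ (_) (_) _ _ _ _ ⟨fun h => ⟨congrArg (·.disjSum D) h.1, ?_⟩,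
        fun h => ⟨(disjSum_inj.1 h.1).1, ?_⟩⟩ rfl rfl
      · rw [lab_bs, lab_bs, h.1, e]
      · have h3 : l.1.fc = l'.1.fc := (disjSum_inj.1 h.1).1
        rcases bs_unit l.1 with a | a <;> rcases bs_unit l'.1 with b | b
        · rw [a, b]
        · have := l.1.card_eq a; have := l'.1.card_lt b; rw [h3] at *; omega
        · have := l.1.card_lt a; have := l'.1.card_eq b; rw [h3] at *; omega
        · rw [a, b]
    · exact (by_contra fun n => e (gam_lv hT n) : Gam T cl Unit m l.1 l'.1 = 0).trans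
        (by_contra fun n => e (gam_lv hT (Ne.symm n) :))
  · obtain ⟨l, rfl⟩ := h1
    refine by_contra fun n => h2 ?_
    have h3 : T.lv l.1.cd = T.lv l₂.cd := (gam_lv hT n :)
    obtain ⟨l', e1, e2, -⟩ := exists_lab (T := T) (cl := cl) (m := m) () (a := l₂.cd) (A := l.1.fc)
      l₂.2.1 l.1.2.2.1 (h3 ▸ l.1.card_le)
    refine ⟨⟨l', hP l l' e2.symm (e1 ▸ h3) l.2⟩, lb_ext e1 ?_ ?_⟩
    · exact (congrArg (·.disjSum D) e2).trans (Gam_ne n).1
    · simp only [← (Gam_ne n).2, lab_bs, e1, e2, h3]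

theorem qq_bs (hT : T.Ok s N) {W C' : Type} [Fintype W] [DecidableEq W] {cl : W → C'}
    [DecidableEq S] (v : Lb T cl S m → ℝ) :
    qq (Gam T cl S m) v = ∑ o, qq (Gam T cl S m) fun l => if l.bs = o then v l else 0 := by
  simp only [qq, dotProduct, mulVec, mul_sum]
  symm
  rw [sum_comm]
  refine sum_congr rfl fun l _ => ?_
  rw [sum_comm]
  refine sum_congr rfl fun l' _ => ?_
  rw [sum_eq_single l.bs (fun o _ e => by rw [if_neg (Ne.symm e), zero_mul]) (by simp), if_pos rfl]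
  by_cases e : Gam T cl S m l l' = 0
  · simp [e]
  · rw [if_pos (Gam_ne e).2.symm]

end

end Vale.Agent.P057PA
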